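import Mathlib

namespace Vale.Agent.P302

/-- `OPT(I)`: the least number `k` of bins such that the items of the list `I` can be distributed
over `k` bins, each bin holding items of total size at most `1`. -/
noncomputable def opt (I : List ℚ) : ℕ :=
  sInf {k : ℕ | ∃ f : Fin I.length → Fin k, ∀ j : Fin k, ∑ i with f i = j, I.get i ≤ 1}

/-- `LP(I)`: the value of the Gilmore-Gomory configuration LP. A configuration is a vector `c` of
natural numbers indexed by the distinct sizes `σ` of `I` with `∑ σ c_σ ≤ 1`; the weights `z_c ≥ 0`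
live on a finite set `F` of configurations and cover every size `σ` at least `n_σ` times. -/
noncomputable def lp (I : List ℚ) : ℝ :=
  sInf {v : ℝ | ∃ (F : Finset (I.toFinset → ℕ)) (z : (I.toFinset → ℕ) → ℝ),
    (∀ c ∈ F, ∑ σ : I.toFinset, (σ : ℚ) * (c σ : ℚ) ≤ 1 ∧ 0 ≤ z c) ∧
    (∀ σ : I.toFinset, (I.count (σ : ℚ) : ℝ) ≤ ∑ c ∈ F, (c σ : ℝ) * z c) ∧
    v = ∑ c ∈ F, z c}

end Vale.Agent.P302
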