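import Mathlib

/-! A tree of nested intervals with tokens that cannot cover all leaves. -/

namespace Vale.Agent.P302

open Finset

/-- a used token: its length and the two ends of the interval that it opens -/
abbrev Tk := ℚ × ℚ × ℚ

def Dom (A : Multiset Tk) (ν μ : ℚ) (T : Multiset ℚ) : Prop :=
  ∀ x, ν ≤ x → x < μ → (A.map Prod.fst).count x ≤ T.count x

def ext (A : Multiset Tk) (μ a b : ℚ) : ℚ :=
  (A.map fun t => if μ ≤ t.1 ∧ t.2.1 ≤ b ∧ a ≤ t.2.2 then t.1 else 0).sum

def wt (A : Multiset Tk) (ν lam a : ℚ) : ℚ :=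
  (A.map fun t => if ν ≤ t.1 ∧ t.2.1 ≤ a + lam ∧ a ≤ t.2.2 then min 1 (16 * t.1 / lam) else 0).sum

def Sorted (a b : ℚ) (lv : ℕ → List (ℚ × ℚ)) : Prop :=
  ∀ j, (lv j).Pairwise (fun p q => p.2 ≤ q.1) ∧ ∀ p ∈ lv j, a ≤ p.1 ∧ p.1 ≤ p.2 ∧ p.2 ≤ b

def lens (h : ℕ) (lv : ℕ → List (ℚ × ℚ)) : Multiset ℚ :=
  ∑ j ∈ range h, ((lv j : Multiset (ℚ × ℚ)).map fun p => p.2 - p.1)

def Hole (h : ℕ) (lv : ℕ → List (ℚ × ℚ)) (A : Multiset Tk) (a b ν : ℚ) : Prop :=
  ∃ l r, a ≤ l ∧ r ≤ b ∧ ν ≤ r - l ∧ (∀ j < h, ∃ p ∈ lv j, p.1 ≤ l ∧ r ≤ p.2) ∧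
    ∀ t ∈ A, ¬ (t.2.1 ≤ l ∧ r ≤ t.2.2)

def Ok (A : Multiset Tk) : Prop := ∀ t ∈ A, t.2.2 - t.2.1 ≤ t.1

def Gad (h : ℕ) (a L μ : ℚ) (lv : ℕ → List (ℚ × ℚ)) (T : Multiset ℚ) (ν : ℚ) : Prop :=
  0 < ν ∧ ν ≤ μ ∧ (∀ x ∈ T, ν ≤ x ∧ x < μ) ∧ T.sum ≤ L / 64 ∧ Sorted a (a + L) lv ∧
    lens h lv = T + T ∧
    ∀ A, Ok A → Dom A ν μ T → ext A μ a (a + L) ≤ L / 16 → Hole h lv A a (a + L) ν

def For (h : ℕ) (a s lam : ℚ) (k : ℕ) (lv : ℕ → List (ℚ × ℚ)) (T : Multiset ℚ) (ν : ℚ) : Prop :=
  0 < ν ∧ ν ≤ lam ∧ (∀ x ∈ T, ν ≤ x ∧ x < lam) ∧ T.sum ≤ k * lam / 64 ∧ Sorted a (a + k * s) lv ∧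
    lens h lv = T + T ∧
    ∀ A, Ok A → Dom A ν lam T → ∀ i : ℕ, i < k → wt A ν lam (a + i * s) < 1 →
      Hole h lv A (a + i * s) (a + i * s + lam) ν

lemma dom_sum {A : Multiset Tk} {ν μ : ℚ} {T : Multiset ℚ} (hd : Dom A ν μ T) (g : ℚ → ℚ)
    (hg : ∀ x ∈ T, 0 ≤ g x) :
    (A.map fun t => if ν ≤ t.1 ∧ t.1 < μ then g t.1 else 0).sum ≤ (T.map g).sum := by
  have h1 : (A.map Prod.fst).filter (fun x => ν ≤ x ∧ x < μ) ≤ T := by
    rw [Multiset.le_iff_count]
    intro x
    rw [Multiset.count_filter]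
    split_ifs with h
    · exact hd x h.1 h.2
    · exact Nat.zero_le _
  obtain ⟨U, hU⟩ := Multiset.le_iff_exists_add.1 h1
  have h2 : (A.map fun t => if ν ≤ t.1 ∧ t.1 < μ then g t.1 else 0).sum =
      (((A.map Prod.fst).filter (fun x => ν ≤ x ∧ x < μ)).map g).sum := by
    clear hU h1 hd
    induction A using Multiset.induction_on with
    | empty => simp
    | cons t A ih =>
      rw [Multiset.map_cons, Multiset.sum_cons, ih, Multiset.map_cons, Multiset.filter_cons]
      split_ifs <;> simp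
  have h3 : 0 ≤ (U.map g).sum := Multiset.sum_nonneg fun y hy => by
    obtain ⟨x, hx, rfl⟩ := Multiset.mem_map.1 hy
    exact hg x (by rw [hU]; exact Multiset.mem_add.2 (Or.inr hx))
  rw [h2]
  conv_rhs => rw [hU, Multiset.map_add, Multiset.sum_add]
  linarith

lemma gad_zero (a L μ : ℚ) (hL : 0 < L) (hμ : 0 < μ) :
    Gad 0 a L μ (fun _ => []) 0 (min μ L) := by
  refine ⟨lt_min hμ hL, min_le_left _ _, by simp, by simp; positivity, fun j => by simp,
    by simp [lens], fun A hA hd he => ⟨a, a + L, le_rfl, le_rfl, by simp, by simp, ?_⟩⟩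
  rintro t ht ⟨h1, h2⟩
  have h3 := hA t ht
  by_cases hm : μ ≤ t.1
  · have : t.1 ≤ ext A μ a (a + L) := by
      unfold ext
      refine le_trans (le_of_eq ?_) (Multiset.single_le_sum ?_ _ (Multiset.mem_map_of_mem _ ht))
      · rw [if_pos ⟨hm, by linarith, by linarith⟩]
      · intro y hy
        obtain ⟨u, _, rfl⟩ := Multiset.mem_map.1 hy
        split_ifs with h
        · linarith [h.1]
        · exact le_rfl
    linarith
  · have := hd t.1 (by have := min_le_right μ L; linarith) (not_le.1 hm)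
    rw [Multiset.count_zero, Nat.le_zero, Multiset.count_eq_zero] at this
    exact this (Multiset.mem_map_of_mem _ ht)

lemma wt_mono {A : Multiset Tk} {ν ν' lam a : ℚ} (h0 : 0 < ν') (h : ν' ≤ ν) (hl : 0 < lam) :
    wt A ν lam a ≤ wt A ν' lam a := by
  unfold wt
  refine Multiset.sum_map_le_sum_map _ _ fun t _ => ?_
  split_ifs with h1 h2 h2
  · exact le_rfl
  · exact absurd ⟨h.trans h1.1, h1.2⟩ h2
  · have : 0 < t.1 := h0.trans_le h2.1
    exact le_min zero_le_one (by positivity)
  · exact le_rfl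

lemma ext_le_of_wt {A : Multiset Tk} {ν ν' lam a : ℚ} (h0 : 0 < ν') (h : ν' ≤ ν) (hl : 0 < lam)
    (hw : wt A ν' lam a < 1) : ext A ν a (a + lam) ≤ lam / 16 := by
  have hw' : wt A ν lam a < 1 := (wt_mono h0 h hl).trans_lt hw
  have hν : 0 < ν := h0.trans_le h
  have key : ext A ν a (a + lam) ≤ lam / 16 * wt A ν lam a := by
    unfold ext
    conv_rhs => unfold wt
    rw [← Multiset.sum_map_mul_left]
    refine Multiset.sum_map_le_sum_map _ _ fun t ht => ?_
    split_ifs with h1
    · have h2 : min 1 (16 * t.1 / lam) ≤ wt A ν lam a := by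
        unfold wt
        refine le_trans (le_of_eq ?_) (Multiset.single_le_sum ?_ _ (Multiset.mem_map_of_mem _ ht))
        · rw [if_pos h1]
        · intro y hy
          obtain ⟨u, _, rfl⟩ := Multiset.mem_map.1 hy
          split_ifs with h3
          · have : 0 < u.1 := hν.trans_le h3.1
            exact le_min zero_le_one (by positivity)
          · exact le_rfl
      have h3 : min 1 (16 * t.1 / lam) = 16 * t.1 / lam := by
        rcases min_choice 1 (16 * t.1 / lam) with e | e
        · rw [e] at h2; linarith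
        · exact e
      rw [h3]
      field_simp
      exact le_rfl
    · simp
  nlinarith

lemma Hole.mono {h : ℕ} {lv lv' : ℕ → List (ℚ × ℚ)} {A : Multiset Tk} {a b ν ν' : ℚ}
    (H : Hole h lv A a b ν) (h1 : ν' ≤ ν) (h2 : ∀ j, ∀ p ∈ lv j, p ∈ lv' j) :
    Hole h lv' A a b ν' := by
  obtain ⟨l, r, e1, e2, e3, e4, e5⟩ := H
  refine ⟨l, r, e1, e2, h1.trans e3, fun j hj => ?_, e5⟩
  obtain ⟨p, hp, e⟩ := e4 j hj
  exact ⟨p, h2 j p hp, e⟩

lemma forest {h : ℕ}
    (ih : ∀ a L μ : ℚ, 0 < L → 0 < μ → ∃ lv T ν, Gad h a L μ lv T ν)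
    (a s lam : ℚ) (hl : 0 < lam) (hs : lam ≤ s) (k : ℕ) :
    ∃ lv T ν, For h a s lam k lv T ν := by
  induction k with
  | zero =>
    exact ⟨fun _ => [], 0, lam, hl, le_rfl, by simp, by simp, fun j => by simp, by simp [lens],
      fun A _ _ i hi => absurd hi (Nat.not_lt_zero i)⟩
  | succ k ihk =>
    obtain ⟨lv, T, ν, f1, f2, f3, f4, f5, f6, f7⟩ := ihk
    obtain ⟨lv', T', ν', g1, g2, g3, g4, g5, g6, g7⟩ := ih (a + k * s) lam ν hl f1
    have hk : (0 : ℚ) ≤ k * s := by have : 0 < s := hl.trans_le hs; positivity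
    refine ⟨fun j => lv j ++ lv' j, T + T', ν', g1, g2.trans f2, ?_, ?_, ?_, ?_, ?_⟩
    · intro x hx
      rcases Multiset.mem_add.1 hx with hx | hx
      · exact ⟨g2.trans (f3 x hx).1, (f3 x hx).2⟩
      · exact ⟨(g3 x hx).1, (g3 x hx).2.trans_le f2⟩
    · rw [Multiset.sum_add]; push_cast; linarith
    · intro j
      refine ⟨List.pairwise_append.2 ⟨(f5 j).1, (g5 j).1, fun p hp q hq => ?_⟩, fun p hp => ?_⟩
      · exact ((f5 j).2 p hp).2.2.trans ((g5 j).2 q hq).1
      · push_cast
        rcases List.mem_append.1 hp with hp | hp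
        · obtain ⟨e1, e2, e3⟩ := (f5 j).2 p hp
          exact ⟨e1, e2, by linarith⟩
        · obtain ⟨e1, e2, e3⟩ := (g5 j).2 p hp
          exact ⟨by linarith, e2, by linarith⟩
    · have : lens h (fun j => lv j ++ lv' j) = lens h lv + lens h lv' := by
        unfold lens
        rw [← Finset.sum_add_distrib]
        refine Finset.sum_congr rfl fun j _ => ?_
        rw [← Multiset.coe_add, Multiset.map_add]
      rw [this, f6, g6]
      abel
    · intro A hA hd i hi hw
      rcases Nat.lt_succ_iff_lt_or_eq.1 hi with hi | rfl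
      · refine (f7 A hA (fun x h1 h2 => ?_) i hi ((wt_mono g1 g2 hl).trans_lt hw)).mono g2
          fun j p hp => List.mem_append_left _ hp
        have := hd x (g2.trans h1) h2
        rwa [Multiset.count_add, Multiset.count_eq_zero.2 fun hx => absurd (g3 x hx).2 (not_lt.2 h1),
          add_zero] at this
      · refine (g7 A hA (fun x h1 h2 => ?_) (ext_le_of_wt g1 g2 hl hw)).mono le_rfl
          fun j p hp => List.mem_append_right _ hp
        have := hd x h1 (h2.trans_le f2)
        rwa [Multiset.count_add, Multiset.count_eq_zero.2 fun hx => absurd (f3 x hx).1 (not_le.2 h2),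
          zero_add] at this

lemma card_le_of_close (S : Finset ℕ) {s D : ℚ} (hs : 0 < s) (hD : 0 ≤ D)
    (h : ∀ i ∈ S, ∀ j ∈ S, (i : ℚ) * s - j * s ≤ D) : (S.card : ℚ) ≤ D / s + 1 := by
  rcases S.eq_empty_or_nonempty with rfl | hne
  · simp; positivity
  · have hsub : S ⊆ Finset.Icc (S.min' hne) (S.min' hne + ⌊D / s⌋₊) := by
      intro i hi
      have h1 := S.min'_le i hi
      refine Finset.mem_Icc.2 ⟨h1, ?_⟩
      have h2 := h i hi _ (S.min'_mem hne)
      have h3 : i - S.min' hne ≤ ⌊D / s⌋₊ := by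
        apply Nat.le_floor
        rw [Nat.cast_sub h1, le_div_iff₀ hs]
        linarith
      omega
    have h4 := Finset.card_le_card hsub
    rw [Nat.card_Icc] at h4
    have h5 : S.card ≤ ⌊D / s⌋₊ + 1 := by omega
    have h6 : ((⌊D / s⌋₊ : ℕ) : ℚ) ≤ D / s := Nat.floor_le (by positivity)
    have h7 : (S.card : ℚ) ≤ (⌊D / s⌋₊ : ℕ) + 1 := by exact_mod_cast h5
    linarith

lemma card_le_one_of_close (S : Finset ℕ) {s D : ℚ} (hD : D < s)
    (h : ∀ i ∈ S, ∀ j ∈ S, (i : ℚ) * s - j * s ≤ D) : (S.card : ℚ) ≤ 1 := by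
  have : S.card ≤ 1 := by
    rw [Finset.card_le_one]
    intro i hi j hj
    by_contra hne
    have hs : 0 < s := by have := h i hi i hi; linarith
    rcases lt_or_gt_of_ne hne with e | e
    · have e' : (i : ℚ) + 1 ≤ j := by exact_mod_cast e
      have := h j hj i hi
      nlinarith
    · have e' : (j : ℚ) + 1 ≤ i := by exact_mod_cast e
      have := h i hi j hj
      nlinarith
  exact_mod_cast this

/-- the weight that one token puts on all children together -/
lemma token_bound (t : Tk) (ht : t.2.2 - t.2.1 ≤ t.1) {a s μ ν : ℚ} {b : ℕ} (hs : 0 < s) (hμ : s ≤ μ)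
    (hν : 0 < ν) (hb : 0 < b) :
    ∑ i ∈ range b, (if ν ≤ t.1 ∧ t.2.1 ≤ a + i * s + s / 64 ∧ a + i * s ≤ t.2.2 then
        min 1 (16 * t.1 / (s / 64)) else 0) ≤
      3 / s * (if μ ≤ t.1 ∧ t.2.1 ≤ a + b * s ∧ a ≤ t.2.2 then t.1 else 0) +
      (if ν ≤ t.1 ∧ t.1 < μ then (if s / 64 < t.1 then (b : ℚ) else min 1 (16 * t.1 / (s / 64)))
        else 0) := by
  set S := (range b).filter fun i : ℕ =>
    ν ≤ t.1 ∧ t.2.1 ≤ a + i * s + s / 64 ∧ a + i * s ≤ t.2.2 with hS
  rw [← Finset.sum_filter, Finset.sum_const, nsmul_eq_mul, ← hS]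
  have hcl : ∀ i ∈ S, ∀ j ∈ S, (i : ℚ) * s - j * s ≤ t.1 + s / 64 := by
    intro i hi j hj
    have h1 := (Finset.mem_filter.1 hi).2
    have h2 := (Finset.mem_filter.1 hj).2
    linarith [h1.2.2, h2.2.1]
  rcases S.eq_empty_or_nonempty with he | ⟨i, hi⟩
  · rw [he]
    simp only [card_empty, Nat.cast_zero, zero_mul]
    refine add_nonneg (mul_nonneg (by positivity) ?_) ?_
    · split_ifs with h
      · linarith [h.1]
      · exact le_rfl
    · split_ifs with h h'
      · positivity
      · have : 0 < t.1 := hν.trans_le h.1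
        exact le_min zero_le_one (by positivity)
      · exact le_rfl
  · obtain ⟨hib, h1, h2, h3⟩ := Finset.mem_filter.1 hi
    have hib' : (i : ℚ) + 1 ≤ b := by exact_mod_cast Finset.mem_range.1 hib
    have ht0 : 0 < t.1 := hν.trans_le h1
    have hm0 : 0 ≤ min 1 (16 * t.1 / (s / 64)) := le_min zero_le_one (by positivity)
    have hm1 : min 1 (16 * t.1 / (s / 64)) ≤ 1 := min_le_left _ _
    have hi0 : (0 : ℚ) ≤ i * s := by positivity
    by_cases hm : μ ≤ t.1
    · rw [if_pos ⟨hm, by nlinarith, by linarith⟩, if_neg fun h => absurd h.2 (not_lt.2 hm)]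
      have h4 := card_le_of_close S hs (by positivity) hcl
      have h5 : (t.1 + s / 64) / s + 1 ≤ 3 / s * t.1 := by
        rw [div_add_one hs.ne', div_mul_eq_mul_div]
        gcongr
        linarith
      have h6 : (S.card : ℚ) * min 1 (16 * t.1 / (s / 64)) ≤ S.card * 1 := by gcongr
      linarith
    · rw [if_neg fun h => hm h.1, if_pos ⟨h1, not_le.1 hm⟩]
      split_ifs with h7
      · have h8 : (S.card : ℚ) ≤ b := by
          have := Finset.card_filter_le (range b) fun i : ℕ =>
            ν ≤ t.1 ∧ t.2.1 ≤ a + i * s + s / 64 ∧ a + i * s ≤ t.2.2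
          rw [Finset.card_range] at this
          exact_mod_cast this
        have h6 : (S.card : ℚ) * min 1 (16 * t.1 / (s / 64)) ≤ S.card * 1 := by gcongr
        linarith
      · have h8 := card_le_one_of_close S (by linarith [not_lt.1 h7]) hcl
        have h6 : (S.card : ℚ) * min 1 (16 * t.1 / (s / 64)) ≤ 1 * min 1 (16 * t.1 / (s / 64)) := by
          gcongr
        linarith

theorem exists_gad (h : ℕ) : ∀ a L μ : ℚ, 0 < L → 0 < μ → ∃ lv T ν, Gad h a L μ lv T ν := by
  induction h with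
  | zero => exact fun a L μ hL hμ => ⟨_, _, _, gad_zero a L μ hL hμ⟩
  | succ h ih =>
    intro a L μ hL hμ
    obtain ⟨c, hc⟩ := exists_nat_gt (L / μ)
    have hc0 : (0 : ℚ) < c := lt_trans (by positivity) hc
    set b : ℕ := 2 * c with hb
    have hbq : (b : ℚ) = 2 * c := by rw [hb]; push_cast; ring
    have hb0 : (0 : ℚ) < b := by rw [hbq]; positivity
    set s : ℚ := L / b with hs
    have hs0 : 0 < s := by positivity
    have hbs : (b : ℚ) * s = L := by rw [hs]; field_simp
    have hsμ : s ≤ μ := by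
      rw [hs, div_le_iff₀ hb0]
      rw [div_lt_iff₀ hμ] at hc
      nlinarith
    obtain ⟨lv, T, ν, f1, f2, f3, f4, f5, f6, f7⟩ :=
      forest ih a s (s / 64) (by positivity) (by linarith) b
    let top : List (ℚ × ℚ) := (List.range b).map fun i : ℕ => (a + i * s, a + i * s + s / 64)
    refine ⟨fun j => Nat.rec top (fun j _ => lv j) j, Multiset.replicate c (s / 64) + T, ν, f1,
      by linarith, ?_, ?_, ?_, ?_, ?_⟩
    · intro x hx
      rcases Multiset.mem_add.1 hx with hx | hx
      · rw [Multiset.eq_of_mem_replicate hx]; exact ⟨f2, by linarith⟩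
      · exact ⟨(f3 x hx).1, by linarith [(f3 x hx).2]⟩
    · rw [Multiset.sum_add, Multiset.sum_replicate, nsmul_eq_mul]
      rw [hbq] at f4 hbs
      nlinarith
    · intro j
      cases j with
      | zero =>
        refine ⟨?_, fun p hp => ?_⟩
        · change top.Pairwise _
          rw [List.pairwise_map]
          refine List.pairwise_lt_range.imp fun {i j} hij => ?_
          have : (i : ℚ) + 1 ≤ j := by exact_mod_cast hij
          simp only
          nlinarith
        · obtain ⟨i, hi, rfl⟩ := List.mem_map.1 hp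
          have : (i : ℚ) + 1 ≤ b := by exact_mod_cast List.mem_range.1 hi
          have hi0 : (0 : ℚ) ≤ i * s := by positivity
          simp only
          exact ⟨by linarith, by linarith, by nlinarith⟩
      | succ j => have := f5 j; rwa [hbs] at this
    · unfold lens
      rw [Finset.sum_range_succ']
      change lens h lv + Multiset.map _ (top : Multiset (ℚ × ℚ)) = _
      have : Multiset.map (fun p : ℚ × ℚ => p.2 - p.1) (top : Multiset (ℚ × ℚ)) =
          Multiset.replicate (c + c) (s / 64) := by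
        rw [Multiset.eq_replicate]
        refine ⟨by simp [top, hb]; ring, fun x hx => ?_⟩
        obtain ⟨p, hp, rfl⟩ := Multiset.mem_map.1 hx
        obtain ⟨i, _, rfl⟩ := List.mem_map.1 (Multiset.mem_coe.1 hp)
        simp
      rw [this, f6, Multiset.replicate_add]
      abel
    · intro A hA hd he
      have hsum : ∑ i ∈ range b, wt A ν (s / 64) (a + i * s) < ∑ _i ∈ range b, (1 : ℚ) := by
        unfold wt
        rw [← Multiset.sum_map_sum]
        refine lt_of_le_of_lt (Multiset.sum_map_le_sum_map _ _ fun t ht =>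
          token_bound t (hA t ht) (a := a) hs0 hsμ f1 (by exact_mod_cast hb0)) ?_
        rw [Multiset.sum_map_add, Multiset.sum_map_mul_left]
        have e1 := dom_sum hd (fun x => if s / 64 < x then (b : ℚ) else min 1 (16 * x / (s / 64)))
          (fun x hx => by
            have : 0 < x := by
              rcases Multiset.mem_add.1 hx with hx | hx
              · rw [Multiset.eq_of_mem_replicate hx]; positivity
              · exact f1.trans_le (f3 x hx).1
            split_ifs
            · exact hb0.le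
            · exact le_min zero_le_one (by positivity))
        have e2 : (T.map fun x => if s / 64 < x then (b : ℚ) else min 1 (16 * x / (s / 64))).sum ≤
            (T.map fun x => 1024 / s * x).sum := by
          refine Multiset.sum_map_le_sum_map _ _ fun x hx => ?_
          rw [if_neg (not_lt.2 (f3 x hx).2.le)]
          refine (min_le_right _ _).trans (le_of_eq ?_)
          field_simp
          ring
        rw [Multiset.sum_map_mul_left, Multiset.map_id'] at e2
        rw [Multiset.map_add, Multiset.sum_add, Multiset.map_replicate, Multiset.sum_replicate,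
          if_neg (lt_irrefl _), nsmul_eq_mul] at e1
        have e3 : (c : ℚ) * min 1 (16 * (s / 64) / (s / 64)) ≤ c * 1 := by
          gcongr; exact min_le_left _ _
        have e4 : 1024 / s * T.sum ≤ 1024 / s * (b * (s / 64) / 64) := by gcongr
        have e5 : 1024 / s * (b * (s / 64) / 64) = b / 4 := by field_simp; ring
        unfold ext at he
        rw [hbs]
        have e6 : 3 / s * (A.map fun t =>
            if μ ≤ t.1 ∧ t.2.1 ≤ a + L ∧ a ≤ t.2.2 then t.1 else 0).sum ≤ 3 / s * (L / 16) := by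
          gcongr
        have e7 : 3 / s * (L / 16) = 3 * b / 16 := by rw [← hbs]; field_simp
        rw [Finset.sum_const, card_range, nsmul_eq_mul]
        linarith
      obtain ⟨i, hi, hw⟩ := Finset.exists_lt_of_sum_lt hsum
      have hi' := Finset.mem_range.1 hi
      obtain ⟨l, r, e1, e2, e3, e4, e5⟩ := f7 A hA (fun x h1 h2 => by
        have := hd x h1 (by linarith)
        rwa [Multiset.count_add, Multiset.count_replicate, if_neg (ne_of_gt h2), zero_add] at this)
        i hi' hw
      have hib : (i : ℚ) + 1 ≤ b := by exact_mod_cast hi'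
      have hi0 : (0 : ℚ) ≤ i * s := by positivity
      refine ⟨l, r, by linarith, by nlinarith, e3, fun j hj => ?_, e5⟩
      cases j with
      | zero => exact ⟨_, List.mem_map.2 ⟨i, List.mem_range.2 hi', rfl⟩, e1, e2⟩
      | succ j => exact e4 j (by omega)

end Vale.Agent.P302
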