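import Vale.Agent.P302.Defs
import Vale.Agent.P302.Tree

namespace Vale.Agent.P302

open Finset

lemma lp_le (I : List ℚ) (P : Multiset (Multiset ℚ)) (hP : ∀ b ∈ P, b.sum ≤ 1)
    (hs : P.sum = (I : Multiset ℚ) + I) : lp I ≤ (Multiset.card P : ℝ) / 2 := by
  classical
  let cfg : Multiset ℚ → (I.toFinset → ℕ) := fun b σ => b.count (σ : ℚ)
  let Q := P.map cfg
  have hz : ∀ g : (I.toFinset → ℕ) → ℝ, ∑ c ∈ Q.toFinset, g c * ((Q.count c : ℝ) / 2) =
      (P.map fun b => g (cfg b)).sum / 2 := by
    intro g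
    have : (P.map fun b => g (cfg b)) = Q.map g := by simp [Q]
    rw [this, Finset.sum_multiset_map_count, Finset.sum_div]
    refine Finset.sum_congr rfl fun c _ => ?_
    rw [nsmul_eq_mul]; ring
  refine csInf_le ⟨0, ?_⟩ ⟨Q.toFinset, fun c => (Q.count c : ℝ) / 2, fun c hc => ⟨?_, by positivity⟩,
    fun σ => ?_, ?_⟩
  · rintro v ⟨F, z, h1, _, rfl⟩
    exact Finset.sum_nonneg fun c hc => (h1 c hc).2
  · obtain ⟨b, hb, rfl⟩ := Multiset.mem_map.1 (Multiset.mem_toFinset.1 hc)
    refine le_trans (le_of_eq ?_) (hP b hb)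
    have hsub : b.toFinset ⊆ I.toFinset := by
      intro x hx
      have h1 : x ∈ P.sum := by
        obtain ⟨P', rfl⟩ := Multiset.exists_cons_of_mem hb
        rw [Multiset.sum_cons]
        exact Multiset.mem_add.2 (Or.inl (Multiset.mem_toFinset.1 hx))
      rw [hs, Multiset.mem_add, or_self] at h1
      exact List.mem_toFinset.2 (Multiset.mem_coe.1 h1)
    rw [Finset.sum_coe_sort I.toFinset (fun x : ℚ => x * (b.count x : ℚ)),
      Finset.sum_multiset_count_of_subset b _ hsub]
    refine Finset.sum_congr rfl fun x _ => ?_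
    rw [nsmul_eq_mul, mul_comm]
  · rw [hz fun c => (c σ : ℝ)]
    have h1 : ((P.sum.count (σ : ℚ) : ℕ) : ℝ) = (P.map fun b => (cfg b σ : ℝ)).sum := by
      clear hs hP hz
      induction P using Multiset.induction_on with
      | empty => simp
      | cons b P ih =>
        rw [Multiset.sum_cons, Multiset.count_add, Multiset.map_cons, Multiset.sum_cons, ← ih]
        simp [cfg]
    rw [← h1, hs, Multiset.count_add, Multiset.coe_count]
    push_cast
    linarith
  · have := hz fun _ => 1
    simp only [one_mul, Multiset.map_const', Multiset.sum_replicate, nsmul_eq_mul, mul_one] at this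
    exact this.symm

abbrev Item := ℕ × ℚ

def size (p : Item) : ℚ := (3 * p.1 + p.2) / 119

def Typ (p : Item) : Prop := (p.1 = 10 ∨ p.1 = 14 ∨ p.1 = 15) ∧ 0 ≤ p.2 ∧ p.2 ≤ 1

def iY (y : ℚ) : Item := (10, 1 - y)
def iZ (z : ℚ) : Item := (14, z)
def iT (t : ℚ) : Item := (15, 1 - t)

def cut (l r : ℚ) (p : Item) : ℚ :=
  if p.1 = 10 then (if 1 - p.2 ≤ l then 1 else 0) else
    if p.1 = 14 then (if p.2 < r then -1 else 0) else 0

def toks (X : Multiset Item) : Multiset ℚ := (X.filter fun p => p.1 = 15).map fun p => 1 - p.2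

lemma toks_add (X Y : Multiset Item) : toks (X + Y) = toks X + toks Y := by
  simp [toks]

lemma cut_Y (l r y : ℚ) : cut l r (iY y) = if y ≤ l then 1 else 0 := by simp [cut, iY]
lemma cut_Z (l r z : ℚ) : cut l r (iZ z) = if z < r then -1 else 0 := rfl
lemma cut_T (l r t : ℚ) : cut l r (iT t) = 0 := by simp [cut, iT]

lemma cut_le (l r : ℚ) (p : Item) : cut l r p ≤ 1 := by
  unfold cut; split_ifs <;> norm_num

lemma bin_cases (b : Multiset Item) (ht : ∀ p ∈ b, Typ p) (hb : (b.map size).sum ≤ 1) :
    (∃ y z t, b = {iY y, iZ z, iT t} ∧ z - y ≤ t) ∨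
      (Multiset.card b ≤ 3 ∧ (b.map Prod.fst).sum ≤ 38) := by
  have h1 : (3 * ((b.map Prod.fst).sum : ℕ) : ℚ) / 119 ≤ (b.map size).sum := by
    clear hb
    induction b using Multiset.induction_on with
    | empty => simp
    | cons p b ih =>
      have := ih fun q hq => ht q (Multiset.mem_cons_of_mem hq)
      have h2 := (ht p (Multiset.mem_cons_self p b)).2.1
      simp only [Multiset.map_cons, Multiset.sum_cons, size] at this ⊢
      push_cast at this ⊢
      linarith
  have h2 : (b.map Prod.fst).sum ≤ 39 := by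
    have : (3 * ((b.map Prod.fst).sum : ℕ) : ℚ) ≤ 119 := by linarith
    have : 3 * (b.map Prod.fst).sum ≤ 119 := by exact_mod_cast this
    omega
  have h3 : Multiset.card b * 10 ≤ (b.map Prod.fst).sum := by
    have := Multiset.card_nsmul_le_sum (s := b.map Prod.fst) (a := 10) fun x hx => by
      obtain ⟨p, hp, rfl⟩ := Multiset.mem_map.1 hx
      have := (ht p hp).1
      omega
    simpa using this
  have h4 : (b.map Prod.fst).sum ≤ Multiset.card b * 15 := by
    have := Multiset.sum_le_card_nsmul (b.map Prod.fst) 15 fun x hx => by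
      obtain ⟨p, hp, rfl⟩ := Multiset.mem_map.1 hx
      have := (ht p hp).1
      omega
    simpa using this
  by_cases h5 : (b.map Prod.fst).sum ≤ 38
  · exact Or.inr ⟨by omega, h5⟩
  left
  have h6 : Multiset.card b = 3 := by omega
  obtain ⟨⟨w1, f1⟩, ⟨w2, f2⟩, ⟨w3, f3⟩, rfl⟩ := Multiset.card_eq_three.1 h6
  have t1 := (ht (w1, f1) (by simp)).1
  have t2 := (ht (w2, f2) (by simp)).1
  have t3 := (ht (w3, f3) (by simp)).1
  simp only [Multiset.insert_eq_cons, Multiset.map_cons, Multiset.sum_cons, Multiset.map_singleton,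
    Multiset.sum_singleton, size] at h2 h5 hb t1 t2 t3
  have key : ∀ (c : Multiset Item) (f g k : ℚ), f + g + k ≤ 2 →
      c = {((10 : ℕ), f)} + ({(14, g)} + {(15, k)}) → ∃ y z t : ℚ,
      c = {iY y, iZ z, iT t} ∧ z - y ≤ t :=
    fun c f g k h e => ⟨1 - f, g, 1 - k, by
      simp only [e, iY, iZ, iT, sub_sub_cancel, Multiset.insert_eq_cons, ← Multiset.singleton_add],
      by linarith⟩
  simp only [Multiset.insert_eq_cons, ← Multiset.singleton_add] at key ⊢
  rcases t1 with rfl | rfl | rfl <;> rcases t2 with rfl | rfl | rfl <;>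
    rcases t3 with rfl | rfl | rfl <;> (try omega) <;> push_cast at hb
  · exact key _ f1 f2 f3 (by linarith) rfl
  · exact key _ f1 f3 f2 (by linarith) (by ac_rfl)
  · exact key _ f2 f1 f3 (by linarith) (by ac_rfl)
  · exact key _ f3 f1 f2 (by linarith) (by ac_rfl)
  · exact key _ f2 f3 f1 (by linarith) (by ac_rfl)
  · exact key _ f3 f2 f1 (by linarith) (by ac_rfl)

lemma extract (P : Multiset (Multiset Item)) (ht : ∀ b ∈ P, ∀ p ∈ b, Typ p)
    (hb : ∀ b ∈ P, (b.map size).sum ≤ 1) :
    ∃ A : Multiset Tk, Ok A ∧ A.map Prod.fst ≤ toks P.sum ∧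
      ∀ l r, (∀ t ∈ A, ¬ (t.2.1 ≤ l ∧ r ≤ t.2.2)) →
        (P.sum.map (cut l r)).sum + 3 * ((P.sum.map Prod.fst).sum : ℕ) ≤ 117 * Multiset.card P := by
  induction P using Multiset.induction_on with
  | empty => exact ⟨0, by simp [Ok], by simp, by simp⟩
  | cons b P ih =>
    obtain ⟨A, h1, h2, h3⟩ := ih (fun c hc => ht c (Multiset.mem_cons_of_mem hc))
      (fun c hc => hb c (Multiset.mem_cons_of_mem hc))
    rw [Multiset.sum_cons, toks_add]
    rcases bin_cases b (ht b (Multiset.mem_cons_self b P)) (hb b (Multiset.mem_cons_self b P)) with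
      ⟨y, z, t, rfl, h4⟩ | ⟨h4, h5⟩
    · refine ⟨(t, y, z) ::ₘ A, ?_, ?_, fun l r h => ?_⟩
      · intro u hu
        rcases Multiset.mem_cons.1 hu with rfl | hu
        · exact h4
        · exact h1 u hu
      · have : toks {iY y, iZ z, iT t} = {t} := by
          simp [toks, iY, iZ, iT, Multiset.filter_singleton]
        rw [this, Multiset.map_cons, Multiset.singleton_add]
        exact Multiset.cons_le_cons _ h2
      · have e1 := h3 l r fun u hu => h u (Multiset.mem_cons_of_mem hu)
        have e2 := h (t, y, z) (Multiset.mem_cons_self _ _)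
        have e3 : cut l r (iY y) + cut l r (iZ z) ≤ 0 := by
          rw [cut_Y, cut_Z]
          by_cases e4 : y ≤ l
          · have e5 : z < r := not_le.1 fun e => e2 ⟨e4, e⟩
            rw [if_pos e4, if_pos e5]; norm_num
          · rw [if_neg e4]
            split_ifs <;> norm_num
        have e4 := cut_T l r t
        simp only [Multiset.map_add, Multiset.sum_add, Multiset.insert_eq_cons, Multiset.map_cons,
          Multiset.sum_cons, Multiset.map_singleton, Multiset.sum_singleton, Multiset.card_cons, e4]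
        have e5 : (iY y).1 = 10 := rfl
        have e6 : (iZ z).1 = 14 := rfl
        have e7 : (iT t).1 = 15 := rfl
        rw [e5, e6, e7]
        push_cast at e1 ⊢
        linarith
    · refine ⟨A, h1, h2.trans (Multiset.le_add_left _ _), fun l r h => ?_⟩
      have e1 := h3 l r h
      have e2 := Multiset.sum_le_card_nsmul (b.map (cut l r)) 1 fun x hx => by
        obtain ⟨p, _, rfl⟩ := Multiset.mem_map.1 hx
        exact cut_le l r p
      rw [Multiset.card_map, nsmul_eq_mul, mul_one] at e2
      have e3 : (Multiset.card b : ℚ) ≤ 3 := by exact_mod_cast h4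
      have e4 : (((b.map Prod.fst).sum : ℕ) : ℚ) ≤ 38 := by exact_mod_cast h5
      rw [Multiset.map_add, Multiset.sum_add, Multiset.map_add, Multiset.sum_add, Multiset.card_cons,
        Nat.cast_add, Nat.cast_add]
      push_cast at e1 e4 ⊢
      linarith

lemma triple_ok {y z t : ℚ} (h : z - y ≤ t) :
    (({iY y, iZ z, iT t} : Multiset Item).map size).sum ≤ 1 := by
  simp only [Multiset.insert_eq_cons, Multiset.map_cons, Multiset.sum_cons, Multiset.map_singleton,
    Multiset.sum_singleton, size, iY, iZ, iT]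
  push_cast
  linarith

lemma chain (l : List (ℚ × ℚ)) : ∀ z0 : ℚ, z0 ≤ 1 → l.Pairwise (fun p q => p.2 ≤ q.1) →
    (∀ p ∈ l, z0 ≤ p.1 ∧ p.1 ≤ p.2 ∧ p.2 ≤ 1) →
    ∃ P : Multiset (Multiset Item), Multiset.card P = l.length + 1 ∧
      (∀ b ∈ P, (b.map size).sum ≤ 1) ∧
      P.sum = (l : Multiset (ℚ × ℚ)).map (fun p => iY p.1) + (l : Multiset (ℚ × ℚ)).map (fun p => iZ p.2)
        + {iY 1} + {iZ z0} + (l.length + 1) • {iT 0} := by
  induction l with
  | nil =>
    intro z0 h _ _
    refine ⟨{{iY 1, iZ z0, iT 0}}, by simp, ?_, ?_⟩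
    · intro b hb
      rw [Multiset.mem_singleton.1 hb]
      exact triple_ok (by linarith)
    · simp only [Multiset.insert_eq_cons, ← Multiset.singleton_add, Multiset.sum_singleton,
        Multiset.coe_nil, Multiset.map_zero, List.length_nil]
      module
  | cons p l ih =>
    intro z0 _ h2 h3
    rw [List.pairwise_cons] at h2
    obtain ⟨P, e1, e2, e3⟩ := ih p.2 (h3 p (by simp)).2.2 h2.2 fun q hq =>
      ⟨h2.1 q hq, (h3 q (List.mem_cons_of_mem _ hq)).2⟩
    refine ⟨{iY p.1, iZ z0, iT 0} ::ₘ P, by simp [e1], ?_, ?_⟩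
    · intro b hb
      rcases Multiset.mem_cons.1 hb with rfl | hb
      · exact triple_ok (by linarith [(h3 p (by simp)).1])
      · exact e2 b hb
    · rw [Multiset.sum_cons, e3, ← Multiset.cons_coe, Multiset.map_cons, Multiset.map_cons]
      simp only [Multiset.insert_eq_cons, ← Multiset.singleton_add, List.length_cons]
      module

lemma level_cut (L : List (ℚ × ℚ)) (l r : ℚ) (h1 : L.Pairwise (fun p q => p.2 ≤ q.1))
    (h2 : ∀ p ∈ L, p.1 ≤ p.2) (h3 : ∃ p ∈ L, p.1 ≤ l ∧ r ≤ p.2) :
    1 ≤ ((L : Multiset (ℚ × ℚ)).map fun p => cut l r (iY p.1) + cut l r (iZ p.2)).sum := by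
  obtain ⟨p, hp, e1, e2⟩ := h3
  obtain ⟨L1, L2, rfl⟩ := List.append_of_mem hp
  rw [List.pairwise_append, List.pairwise_cons] at h1
  have nn : ∀ q : ℚ × ℚ, (q.1 ≤ l ∨ r ≤ q.2) → 0 ≤ cut l r (iY q.1) + cut l r (iZ q.2) := by
    intro q hq
    rw [cut_Y, cut_Z]
    rcases hq with hq | hq
    · rw [if_pos hq]
      split_ifs <;> norm_num
    · rw [if_neg (not_lt.2 hq)]
      split_ifs <;> norm_num
  have a1 : 0 ≤ ((L1 : Multiset (ℚ × ℚ)).map fun p => cut l r (iY p.1) + cut l r (iZ p.2)).sum := by
    refine Multiset.sum_nonneg fun x hx => ?_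
    obtain ⟨q, hq, rfl⟩ := Multiset.mem_map.1 hx
    have hq' := Multiset.mem_coe.1 hq
    exact nn q (Or.inl ((h2 q (by simp [hq'])).trans ((h1.2.2 q hq' p (by simp)).trans e1)))
  have a2 : 0 ≤ ((L2 : Multiset (ℚ × ℚ)).map fun p => cut l r (iY p.1) + cut l r (iZ p.2)).sum := by
    refine Multiset.sum_nonneg fun x hx => ?_
    obtain ⟨q, hq, rfl⟩ := Multiset.mem_map.1 hx
    have hq' := Multiset.mem_coe.1 hq
    exact nn q (Or.inr (e2.trans ((h1.2.1.1 q hq').trans (h2 q (by simp [hq'])))))
  have a3 : cut l r (iY p.1) + cut l r (iZ p.2) = 1 := by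
    rw [cut_Y, cut_Z, if_pos e1, if_neg (not_lt.2 e2), add_zero]
  rw [← Multiset.coe_add, ← Multiset.cons_coe, Multiset.map_add, Multiset.sum_add, Multiset.map_cons,
    Multiset.sum_cons, a3]
  linarith

lemma opt_bins (L : List Item) (hL : ∀ p ∈ L, size p ≤ 1) :
    ∃ P : Multiset (Multiset Item), Multiset.card P = opt (L.map size) ∧ P.sum = (L : Multiset Item) ∧
      ∀ b ∈ P, (b.map size).sum ≤ 1 := by
  classical
  have hne : {k : ℕ | ∃ f : Fin (L.map size).length → Fin k,
      ∀ j : Fin k, ∑ i with f i = j, (L.map size).get i ≤ 1}.Nonempty := by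
    refine ⟨_, id, fun j => ?_⟩
    simp only [id]
    rw [Finset.filter_eq', if_pos (Finset.mem_univ _), Finset.sum_singleton]
    obtain ⟨p, hp, e⟩ := List.mem_map.1 (List.get_mem (L.map size) j)
    rw [← e]; exact hL p hp
  obtain ⟨f, hf⟩ := Nat.sInf_mem hne
  have hlen : (L.map size).length = L.length := List.length_map _
  let it : Fin (L.map size).length → Item := fun i => L.get (i.cast hlen)
  refine ⟨Finset.univ.val.map fun j => (Finset.univ.filter fun i => f i = j).val.map it, ?_, ?_, ?_⟩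
  · simp [opt]
  · have e1 : (Finset.univ.val.map it : Multiset Item) = L := by
      rw [Fin.univ_val_map]
      congr 1
      apply List.ext_getElem
      · simp
      · intro i h1 h2; simp [it]
    rw [← e1]
    have e2 : ∀ s : Finset (Fin (L.map size).length), s.val.map it = ∑ i ∈ s, {it i} := by
      intro s
      rw [← Multiset.sum_map_singleton (s.val.map it), Multiset.map_map]
      rfl
    simp only [e2]
    exact Finset.sum_fiberwise Finset.univ f fun i => ({it i} : Multiset Item)
  · intro b hb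
    obtain ⟨j, _, rfl⟩ := Multiset.mem_map.1 hb
    rw [Multiset.map_map]
    refine le_trans (le_of_eq ?_) (hf j)
    change ∑ i with f i = j, size (it i) = _
    refine Finset.sum_congr rfl fun i _ => ?_
    simp [it]

lemma msum {α β : Type} (s : Finset ℕ) (f : ℕ → Multiset α) (g : α → β) :
    (∑ j ∈ s, f j).map g = ∑ j ∈ s, (f j).map g := map_sum (Multiset.mapAddMonoidHom g) f s

lemma msing {α β : Type} (s : Multiset α) (g : α → β) :
    (s.map fun x => ({g x} : Multiset β)).sum = s.map g := by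
  conv_rhs => rw [← Multiset.sum_map_singleton (s.map g), Multiset.map_map]
  rfl

theorem main (c : ℕ) : ∃ (I : List ℚ) (m : ℕ), (∀ a ∈ I, 1 / 4 < a ∧ a < 1 / 2) ∧ lp I ≤ m ∧
    m + c < opt I := by
  classical
  set e : ℕ := 117 * c + 1 with he
  obtain ⟨lv, T, ν, g1, g2, g3, -, g5, g6, g7⟩ := exists_gad (e + e) 0 1 1 one_pos one_pos
  rw [zero_add] at g5 g7
  set N : Multiset (ℚ × ℚ) := ∑ j ∈ range (e + e), (lv j : Multiset (ℚ × ℚ)) with hN
  have hlen : N.map (fun p => p.2 - p.1) = T + T := by
    rw [← g6, hN, msum]; rfl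
  have hcard : Multiset.card N = Multiset.card T + Multiset.card T := by
    rw [← Multiset.card_add, ← hlen, Multiset.card_map]
  have hNm : ∀ p ∈ N, 0 ≤ p.1 ∧ p.1 ≤ p.2 ∧ p.2 ≤ 1 := by
    intro p hp
    obtain ⟨j, _, hj⟩ := Multiset.mem_sum.1 hp
    exact (g5 j).2 p hj
  set X : Multiset Item := N.map (fun p => iY p.1) + N.map (fun p => iZ p.2) + T.map iT +
    e • {iY 1} + e • {iZ 0} + (Multiset.card T + e) • {iT 0} with hX
  have hT : ∀ p ∈ X, Typ p := by
    intro p hp
    simp only [hX, Multiset.mem_add, Multiset.mem_map] at hp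
    rcases hp with ((((⟨q, hq, rfl⟩ | ⟨q, hq, rfl⟩) | ⟨q, hq, rfl⟩) | hp) | hp) | hp
    · obtain ⟨h1, h2, h3⟩ := hNm q hq
      exact ⟨Or.inl rfl, by simp only [iY]; linarith, by simp only [iY]; linarith⟩
    · obtain ⟨h1, h2, h3⟩ := hNm q hq
      exact ⟨Or.inr (Or.inl rfl), by simp only [iZ]; linarith, h3⟩
    · obtain ⟨h1, h2⟩ := g3 q hq
      exact ⟨Or.inr (Or.inr rfl), by simp only [iT]; linarith, by simp only [iT]; linarith⟩
    · rw [Multiset.mem_singleton.1 (Multiset.mem_of_mem_nsmul hp)]; simp [Typ, iY]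
    · rw [Multiset.mem_singleton.1 (Multiset.mem_of_mem_nsmul hp)]; simp [Typ, iZ]
    · rw [Multiset.mem_singleton.1 (Multiset.mem_of_mem_nsmul hp)]; simp [Typ, iT]
  have hsz : ∀ p, Typ p → 1 / 4 < size p ∧ size p < 1 / 2 := by
    rintro p ⟨h1, h2, h3⟩
    unfold size
    rcases h1 with h | h | h <;> rw [h] <;> push_cast <;> constructor <;> linarith
  refine ⟨X.toList.map size, Multiset.card N + e, fun a ha => ?_, ?_, ?_⟩
  · obtain ⟨p, hp, rfl⟩ := List.mem_map.1 ha
    exact hsz p (hT p (Multiset.mem_toList.1 hp))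
  · choose P p1 p2 p3 using fun j => chain (lv j) 0 zero_le_one (g5 j).1 (g5 j).2
    set Q : Multiset (Multiset Item) := N.map (fun p => {iY p.1, iZ p.2, iT (p.2 - p.1)}) +
      ∑ j ∈ range (e + e), P j with hQ
    have hl : ∑ j ∈ range (e + e), ((lv j).length + 1) = Multiset.card N + (e + e) := by
      rw [Finset.sum_add_distrib, hN, Multiset.card_sum]
      simp
    have q1 : Multiset.card Q = 2 * (Multiset.card N + e) := by
      rw [hQ, Multiset.card_add, Multiset.card_map, Multiset.card_sum _ P]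
      rw [Finset.sum_congr rfl fun j _ => p1 j, hl]; ring
    have q2 : Q.sum = X + X := by
      have a1 : (N.map fun p => ({iY p.1, iZ p.2, iT (p.2 - p.1)} : Multiset Item)).sum =
          N.map (fun p => iY p.1) + N.map (fun p => iZ p.2) + (T.map iT + T.map iT) := by
        rw [← Multiset.map_add, ← hlen, Multiset.map_map]
        simp only [Multiset.insert_eq_cons, ← Multiset.singleton_add, Multiset.sum_map_add]
        rw [add_assoc, msing, msing, msing]
        rfl
      have a2 : (∑ j ∈ range (e + e), P j).sum = N.map (fun p => iY p.1) + N.map (fun p => iZ p.2)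
          + (e + e) • {iY 1} + (e + e) • {iZ 0} + (Multiset.card N + (e + e)) • {iT 0} := by
        rw [Multiset.sum_sum]
        simp only [p3]
        rw [Finset.sum_add_distrib, Finset.sum_add_distrib, Finset.sum_add_distrib,
          Finset.sum_add_distrib, ← Finset.sum_smul, hl, Finset.sum_const, Finset.sum_const,
          card_range, hN, msum, msum]
      rw [hQ, Multiset.sum_add, a1, a2, hX, hcard]
      module
    have := lp_le (X.toList.map size) (Q.map (Multiset.map size)) (fun b hb => by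
      obtain ⟨b', hb', rfl⟩ := Multiset.mem_map.1 hb
      rcases Multiset.mem_add.1 hb' with h | h
      · obtain ⟨p, _, rfl⟩ := Multiset.mem_map.1 h
        exact triple_ok le_rfl
      · obtain ⟨j, _, hj⟩ := Multiset.mem_sum.1 h
        exact p2 j b' hj) (by
      rw [← Multiset.map_coe, Multiset.coe_toList, ← Multiset.map_add, ← q2]
      exact (map_multiset_sum (Multiset.mapAddMonoidHom size) Q).symm)
    rw [Multiset.card_map, q1] at this
    push_cast at this ⊢
    linarith
  · obtain ⟨P, p1, p2, p3⟩ := opt_bins X.toList fun p hp => by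
      linarith [(hsz p (hT p (Multiset.mem_toList.1 hp))).2]
    rw [Multiset.coe_toList] at p2
    obtain ⟨A, a1, a2, a3⟩ := extract P (fun b hb p hp => hT p (by
      obtain ⟨P', rfl⟩ := Multiset.exists_cons_of_mem hb
      rw [← p2, Multiset.sum_cons]
      exact Multiset.mem_add.2 (Or.inl hp))) p3
    rw [p2] at a2 a3
    have ht : toks X = T + (Multiset.card T + e) • {0} := by
      simp [hX, toks, Multiset.filter_map, iY, iZ, iT, Multiset.filter_nsmul, Multiset.map_nsmul,
        Multiset.filter_singleton, Function.comp_def]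
    rw [ht] at a2
    obtain ⟨l, r, h1, h2, h3, h4, h5⟩ := g7 A a1 (fun x hx _ => by
      have := Multiset.count_le_of_le x a2
      rwa [Multiset.count_add, Multiset.count_nsmul, Multiset.count_singleton,
        if_neg (g1.trans_le hx).ne', mul_zero, add_zero] at this) (by
      have : ext A 1 0 1 = 0 := by
        refine Multiset.sum_eq_zero fun y hy => ?_
        obtain ⟨t, ht, rfl⟩ := Multiset.mem_map.1 hy
        refine if_neg fun h => ?_
        rcases Multiset.mem_add.1 (Multiset.mem_of_le a2 (Multiset.mem_map_of_mem _ ht)) with h' | h'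
        · linarith [(g3 _ h').2, h.1]
        · linarith [Multiset.mem_singleton.1 (Multiset.mem_of_mem_nsmul h'), h.1]
      rw [this]; norm_num)
    have b1 := a3 l r h5
    have b2 : (X.map Prod.fst).sum = 39 * (Multiset.card N + e) := by
      simp [hX, iY, iZ, iT, Multiset.map_nsmul, Multiset.sum_nsmul, hcard, Function.comp_def]
      ring
    have b3 : (e : ℚ) ≤ (X.map (cut l r)).sum := by
      have c1 : ((e + e : ℕ) : ℚ) ≤ (N.map fun p => cut l r (iY p.1) + cut l r (iZ p.2)).sum := by
        rw [hN, msum, Multiset.sum_sum]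
        have := Finset.card_nsmul_le_sum (range (e + e)) _ 1 fun j hj =>
          level_cut (lv j) l r (g5 j).1 (fun p hp => ((g5 j).2 p hp).2.1) (h4 j (Finset.mem_range.1 hj))
        rwa [card_range, nsmul_eq_mul, mul_one] at this
      have c2 : 0 ≤ cut l r (iY 1) := by rw [cut_Y]; split_ifs <;> norm_num
      have c3 : -1 ≤ cut l r (iZ 0) := by rw [cut_Z]; split_ifs <;> norm_num
      rw [Multiset.sum_map_add] at c1
      simp only [hX, Multiset.map_add, Multiset.sum_add, Multiset.map_map, Multiset.map_nsmul,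
        Multiset.sum_nsmul, Multiset.map_singleton, Multiset.sum_singleton, Function.comp, cut_T,
        nsmul_eq_mul, Multiset.map_const', Multiset.sum_replicate]
      push_cast at c1 ⊢
      have : (0 : ℚ) ≤ e := by positivity
      nlinarith
    rw [b2, p1] at b1
    have b4 : (e : ℚ) + 3 * ((39 * (Multiset.card N + e) : ℕ) : ℚ) ≤
        117 * (opt (X.toList.map size) : ℚ) := by linarith
    have b5 : e + 3 * (39 * (Multiset.card N + e)) ≤ 117 * opt (X.toList.map size) := by
      exact_mod_cast b4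
    omega

end Vale.Agent.P302
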